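import Vale.Agent.P327.Use

/-! Pointwise computable continuous linear maps have computable rows. -/

namespace Vale.Agent.P327

open Part Nat.Partrec

/-- Pointwise exclusive or. -/
def xadd (x y : ℕ → Bool) : ℕ → Bool := fun i => xor (x i) (y i)

/-- The zero sequence. -/
def zseq : ℕ → Bool := fun _ => false

/-- The `j`-th unit sequence. -/
def unit1 (j : ℕ) : ℕ → Bool := fun i => decide (i = j)

/-- The parity of `x` along a list of indices. -/
def dot (l : List ℕ) (x : ℕ → Bool) : Bool := l.foldr (fun j b => xor (x j) b) false

theorem dot_append (l l' : List ℕ) (x : ℕ → Bool) :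
    dot (l ++ l') x = xor (dot l x) (dot l' x) := by
  induction l with
  | nil => simp [dot]
  | cons a l ih =>
    simp only [dot, List.cons_append, List.foldr_cons] at ih ⊢
    rw [ih, Bool.xor_assoc]

theorem dot_flatMap {T : (ℕ → Bool) → ℕ → Bool} {R : ℕ → List ℕ}
    (hT : ∀ x n, T x n = dot (R n) x) (l : List ℕ) (x : ℕ → Bool) :
    dot (l.flatMap R) x = dot l (T x) := by
  induction l with
  | nil => rfl
  | cons a l ih =>
    rw [List.flatMap_cons, dot_append, ih, ← hT]
    rfl

theorem computable_flatMap {R : ℕ → List ℕ} (hR : Computable R) :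
    Computable fun l : List ℕ => l.flatMap R := by
  have h : ∀ (l : List ℕ) k, k ≤ l.length →
      (Nat.rec [] (fun i acc => acc ++ R (l.getI i)) k : List ℕ) = (l.take k).flatMap R := by
    intro l k hk
    induction k with
    | zero => rfl
    | succ k ih =>
      simp only [ih (by omega)]
      rw [List.take_succ_eq_append_getElem (by omega), List.flatMap_append,
        List.getI_eq_getElem _ (by omega)]
      simp
  refine (Computable.nat_rec (f := fun l : List ℕ => l.length) (g := fun _ => ([] : List ℕ))
    (h := fun l p => p.2 ++ R (l.getI p.1)) Computable.list_length (Computable.const [])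
    (Computable.list_append.comp (Computable.snd.comp Computable.snd)
      (hR.comp (Primrec.list_getI.to_comp.comp Computable.fst
        (Computable.fst.comp Computable.snd)))).to₂).of_eq fun l => ?_
  simp [h l l.length le_rfl]

theorem primrec_getI_bool : Primrec₂ fun (s : List Bool) i => s.getI i := Primrec.list_getI

theorem recursiveIn_pre (x : ℕ → Bool) :
    Nat.RecursiveIn {orc x} fun n => Part.some (Encodable.encode (pre x n)) := by
  have hstep : Primrec fun p : ℕ => Encodable.encode
      (((Encodable.decode p.unpair.1 : Option (List Bool)).getD []) ++ [decide (p.unpair.2 = 1)]) := by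
    refine Primrec.encode.comp (Primrec.list_append.comp (Primrec.option_getD.comp
      (Primrec.decode.comp (Primrec.fst.comp Primrec.unpair)) (Primrec.const []))
      (Primrec.list_cons.comp ?_ (Primrec.const [])))
    exact PrimrecPred.decide (Primrec.eq.comp (Primrec.snd.comp Primrec.unpair) (Primrec.const 1))
  have hy : Nat.RecursiveIn {orc x} fun p => Part.some p.unpair.2.unpair.1 :=
    Nat.Primrec.recursiveIn (Primrec.nat_iff.1
      (Primrec.fst.comp (Primrec.unpair.comp (Primrec.snd.comp Primrec.unpair))))
  have hi : Nat.RecursiveIn {orc x} fun p => Part.some p.unpair.2.unpair.2 :=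
    Nat.Primrec.recursiveIn (Primrec.nat_iff.1
      (Primrec.snd.comp (Primrec.unpair.comp (Primrec.snd.comp Primrec.unpair))))
  have h0 : Nat.RecursiveIn {orc x} fun _ => Part.some (Encodable.encode ([] : List Bool)) :=
    Nat.Primrec.recursiveIn (Primrec.nat_iff.1 (Primrec.const _))
  have hb := Nat.RecursiveIn.comp (Nat.RecursiveIn.oracle (O := {orc x}) (orc x) (Set.mem_singleton _)) hy
  have hg := Nat.RecursiveIn.comp (Nat.Primrec.recursiveIn (Primrec.nat_iff.1 hstep))
    (Nat.RecursiveIn.pair hi hb)
  have hrec := Nat.RecursiveIn.prec h0 hg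
  have harg : Nat.RecursiveIn {orc x} fun n => Part.some (Nat.pair 0 n) :=
    Nat.Primrec.recursiveIn (Primrec.nat_iff.1
      (Primrec₂.natPair.comp (Primrec.const 0) Primrec.id))
  refine Nat.RecursiveIn.of_eq (Nat.RecursiveIn.comp hrec harg) fun n => ?_
  simp only [Part.bind_eq_bind, Part.bind_some, Nat.unpair_pair]
  induction n with
  | zero => simp [pre]
  | succ n ih =>
    have ho : ∀ m : ℕ, (Part.some m >>= orc x) = Part.some (if x m then 1 else 0) := fun m =>
      Part.bind_some _ _
    simp only [Seq.seq, Part.map_eq_map, Part.map_some, Part.bind_some, ho] at ih ⊢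
    rw [ih]
    simp only [Part.bind_some, Nat.unpair_pair, Encodable.encodek, Option.getD_some,
      Part.coe_some]
    congr 2
    simp only [pre, List.range_succ, List.map_append, List.map_cons, List.map_nil]
    cases x n <;> simp

/-- Functions of a computable number of prefix bits are recursive in the oracle. -/
theorem reducible_of_prefix {x y : ℕ → Bool} (b : ℕ → ℕ) (g : List Bool × ℕ → Bool)
    (hb : Computable b) (hg : Computable g) (h : ∀ n, y n = g (pre x (b n), n)) :
    TuringReducible (orc y) (orc x) := by
  rw [TuringReducible, RecursiveIn.iff_nat]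
  have hpre := Nat.RecursiveIn.comp (recursiveIn_pre x)
    (Nat.Partrec.recursiveIn (Partrec.nat_iff.1 hb.partrec))
  have hid : Nat.RecursiveIn {orc x} fun n => Part.some n :=
    Nat.Primrec.recursiveIn Nat.Primrec.id
  have hG : Computable fun p : ℕ =>
      bif g (((Encodable.decode p.unpair.1 : Option (List Bool)).getD []), p.unpair.2) then 1 else 0 :=
    Computable.cond (hg.comp (((Primrec.option_getD.comp
      (Primrec.decode.comp (Primrec.fst.comp Primrec.unpair)) (Primrec.const [])).to_comp).pair
        (Primrec.snd.comp Primrec.unpair).to_comp))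
      (Computable.const 1) (Computable.const 0)
  refine Nat.RecursiveIn.of_eq (Nat.RecursiveIn.comp
    (Nat.Partrec.recursiveIn (Partrec.nat_iff.1 hG.partrec)) (Nat.RecursiveIn.pair hpre hid))
    fun n => ?_
  simp [Seq.seq]
  refine (Part.bind_some _ _).trans ?_
  simp [orc, h n]

theorem pre_getI {x : ℕ → Bool} {L i : ℕ} (h : i < L) : (pre x L).getI i = x i := by
  rw [List.getI_eq_getElem _ (by simpa [pre] using h)]
  simp [pre]

theorem reducible_of_rows {x y : ℕ → Bool} {R : ℕ → List ℕ} (hR : Computable R)
    (h : ∀ n, y n = dot (R n) x) : TuringReducible (orc y) (orc x) := by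
  refine reducible_of_prefix (fun n => (R n).foldr (fun j a => max (j + 1) a) 0)
    (fun p => dot (R p.2) fun i => p.1.getI i) ?_ ?_ fun n => ?_
  · refine (Primrec.list_foldr (f := id) (g := fun _ => 0)
      (h := fun _ p => max (p.1 + 1) p.2) Primrec.id (Primrec.const 0)
      (Primrec.nat_max.comp (Primrec.succ.comp (Primrec.fst.comp Primrec.snd))
        (Primrec.snd.comp Primrec.snd)).to₂).to_comp.comp hR
  · have hd : Primrec₂ fun (l : List ℕ) (s : List Bool) => dot l fun i => s.getI i :=
      (Primrec.list_foldr (f := fun p : List ℕ × List Bool => p.1) (g := fun _ => false)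
        (h := fun p q => xor (p.2.getI q.1) q.2) Primrec.fst (Primrec.const false)
        ((Primrec.dom_bool₂ xor).comp
          (primrec_getI_bool.comp (Primrec.snd.comp Primrec.fst)
            (Primrec.fst.comp Primrec.snd)) (Primrec.snd.comp Primrec.snd)).to₂).to₂
    exact hd.to_comp.comp (hR.comp Computable.snd) Computable.fst
  · rw [h n]
    have : ∀ (l : List ℕ) L, l.foldr (fun j a => max (j + 1) a) 0 ≤ L →
        dot l (fun i => (pre x L).getI i) = dot l x := by
      intro l L
      induction l with
      | nil => intro _; rfl
      | cons a l ih =>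
        intro hL
        simp only [List.foldr_cons, max_le_iff] at hL
        simp only [dot, List.foldr_cons] at ih ⊢
        rw [ih hL.2, pre_getI hL.1]
    exact (this _ _ le_rfl).symm

/-- A set recursive in a computable oracle is computable. -/
theorem computable_of_reducible {x z : ℕ → Bool} (hz : Computable z)
    (h : TuringReducible (orc x) (orc z)) : Computable x := by
  have hp : Partrec (orc z) := (Computable.cond hz (Computable.const 1) (Computable.const 0)).partrec.of_eq
    fun n => by cases hzn : z n <;> simp [orc, hzn]
  have := RecursiveIn.partrec_of_oracle (fun g hg => by rw [Set.mem_singleton_iff.1 hg]; exact hp) h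
  have hc : Computable fun n => if x n then 1 else 0 := this.of_eq fun n => rfl
  exact ((PrimrecPred.decide (Primrec.eq.comp Primrec.id (Primrec.const 1))).to_comp.comp hc).of_eq
    fun n => by cases x n <;> simp

/-- If countably many sets cover Cantor space, one is dense in some cylinder. -/
theorem dense_cylinder (A : Code → Set (ℕ → Bool)) (hA : ∀ x, ∃ c, x ∈ A c) :
    ∃ c, ∃ s : List Bool, ∀ t, s <+: t → ∃ x ∈ A c, pre x t.length = t := by
  by_contra hno
  push_neg at hno
  choose g hg1 hg2 using hno
  let seq : ℕ → List Bool := fun k => k.rec [] fun i acc => g (Denumerable.ofNat Code i) acc ++ [false]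
  have hseq : ∀ k, seq k <+: seq (k + 1) := fun k => (hg1 _ _).trans (List.prefix_append _ _)
  have hmono : ∀ k m, k ≤ m → seq k <+: seq m := by
    intro k m hkm
    induction hkm with
    | refl => exact List.prefix_refl _
    | step _ ih => exact ih.trans (hseq _)
  have hlen : ∀ k, k ≤ (seq k).length := by
    intro k
    induction k with
    | zero => simp
    | succ k ih =>
      have := (hg1 (Denumerable.ofNat Code k) (seq k)).length_le
      simp only [seq, List.length_append, List.length_cons, List.length_nil] at this ih ⊢
      omega
  let x : ℕ → Bool := fun i => (seq (i + 1)).getI i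
  obtain ⟨c, hc⟩ := hA x
  set i := Encodable.encode c
  have hci : Denumerable.ofNat Code i = c := Denumerable.ofNat_encode c
  refine hg2 c (seq i) x hc ?_
  have hpf : g c (seq i) <+: seq (i + 1) := by
    simp only [seq, hci]
    exact List.prefix_append _ _
  refine List.ext_getElem (by simp [pre]) fun j hj hj' => ?_
  simp only [pre, List.getElem_map, List.getElem_range, x]
  have hj1 : j < (seq (j + 1)).length := hlen (j + 1)
  have hj2 : j < (seq (i + 1)).length := hj'.trans_le hpf.length_le
  rw [List.getI_eq_getElem _ hj1, hpf.getElem hj']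
  rcases le_total (i + 1) (j + 1) with h | h
  · exact ((hmono _ _ h).getElem hj2).symm
  · exact (hmono _ _ h).getElem hj1

end Vale.Agent.P327
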