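import Mathlib

/-! The use principle for Mathlib's oracle computability, and elementary reductions. -/

namespace Vale.Agent.P327

open Part Nat.Partrec

/-- The characteristic function of a set, as an oracle. -/
def orc (x : ℕ → Bool) : ℕ →. ℕ := fun n => Part.some (if x n then 1 else 0)

/-- The first `L` bits of `x`. -/
def pre (x : ℕ → Bool) (L : ℕ) : List Bool := (List.range L).map x

theorem pre_prefix (x : ℕ → Bool) {L M : ℕ} (h : L ≤ M) : pre x L <+: pre x M := by
  obtain ⟨d, rfl⟩ := Nat.exists_eq_add_of_le h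
  rw [pre, pre, List.range_add, List.map_append]
  exact List.prefix_append _ _

theorem pre_length (x : ℕ → Bool) (L : ℕ) : (pre x L).length = L := by simp [pre]

/-- A functional evaluated along the prefixes of the oracle. -/
def Represents (x : ℕ → Bool) (f : ℕ →. ℕ) (F : List Bool → ℕ →. ℕ) : Prop :=
  Partrec₂ F ∧ (∀ s t n v, s <+: t → v ∈ F s n → v ∈ F t n) ∧
    ∀ n v, v ∈ f n ↔ ∃ L, v ∈ F (pre x L) n

theorem represents_const {x : ℕ → Bool} {f : ℕ →. ℕ} (hf : Nat.Partrec f) :
    Represents x f fun _ n => f n :=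
  ⟨(Partrec.nat_iff.2 hf).comp Computable.snd, fun _ _ _ _ _ h => h,
    fun _ _ => ⟨fun h => ⟨0, h⟩, fun ⟨_, h⟩ => h⟩⟩

theorem use {x : ℕ → Bool} {f : ℕ →. ℕ} (hf : Nat.RecursiveIn {orc x} f) :
    ∃ F, Represents x f F := by
  induction hf with
  | zero => exact ⟨_, represents_const .zero⟩
  | succ => exact ⟨_, represents_const .succ⟩
  | left => exact ⟨_, represents_const .left⟩
  | right => exact ⟨_, represents_const .right⟩
  | oracle g hg =>
    obtain rfl := Set.mem_singleton_iff.1 hg
    refine ⟨fun s n => Part.ofOption (s[n]?.map fun b => if b then 1 else 0), ?_, ?_, ?_⟩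
    · refine Computable.ofOption (Computable.option_map ?_ ?_)
      · exact Primrec.list_getElem?.to_comp
      · exact (Primrec.ite (by simpa using Primrec.eq.comp Primrec.snd (Primrec.const true))
          (Primrec.const 1) (Primrec.const 0)).to_comp
    · intro s t n v hst hv
      obtain ⟨r, rfl⟩ := hst
      simp only [Part.mem_ofOption, Option.mem_def, Option.map_eq_some_iff] at hv ⊢
      obtain ⟨b, hb, rfl⟩ := hv
      exact ⟨b, by rw [List.getElem?_append_left (List.getElem?_eq_some_iff.1 hb).1, hb], rfl⟩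
    · intro n v
      constructor
      · intro hv
        refine ⟨n + 1, ?_⟩
        simp only [orc, Part.mem_some_iff] at hv
        simp [pre, hv]
      · rintro ⟨L, hv⟩
        simp only [Part.mem_ofOption, Option.mem_def, Option.map_eq_some_iff, pre,
          List.getElem?_map, List.getElem?_eq_some_iff] at hv
        obtain ⟨b, ⟨i, ⟨hi, rfl⟩, rfl⟩, rfl⟩ := hv
        simp [orc]
  | @pair f g _ _ ihf ihg =>
    obtain ⟨F, hF, mF, cF⟩ := ihf
    obtain ⟨G, hG, mG, cG⟩ := ihg
    refine ⟨fun s n => (F s n).bind fun a => (G s n).map fun b => Nat.pair a b, ?_, ?_, ?_⟩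
    · exact Partrec.bind hF (Partrec.map (hG.comp (Computable.fst.comp Computable.fst)
        (Computable.snd.comp Computable.fst))
        (Primrec₂.natPair.to_comp.comp (Computable.snd.comp Computable.fst) Computable.snd).to₂).to₂
    · intro s t n v hst hv
      simp only [Part.mem_bind_iff, Part.mem_map_iff] at hv ⊢
      obtain ⟨a, ha, b, hb, rfl⟩ := hv
      exact ⟨a, mF s t n a hst ha, b, mG s t n b hst hb, rfl⟩
    · intro n v
      simp only [Seq.seq, Part.mem_bind_iff, Part.map_eq_map, Part.mem_map_iff]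
      constructor
      · rintro ⟨_, ⟨a, ha, rfl⟩, b, hb, rfl⟩
        obtain ⟨L, hL⟩ := (cF n a).1 ha
        obtain ⟨M, hM⟩ := (cG n b).1 hb
        exact ⟨max L M, a, mF _ _ n a (pre_prefix x (le_max_left _ _)) hL, b,
          mG _ _ n b (pre_prefix x (le_max_right _ _)) hM, rfl⟩
      · rintro ⟨L, a, ha, b, hb, rfl⟩
        exact ⟨_, ⟨a, (cF n a).2 ⟨L, ha⟩, rfl⟩, b, (cG n b).2 ⟨L, hb⟩, rfl⟩
  | @comp f g _ _ ihf ihg =>
    obtain ⟨F, hF, mF, cF⟩ := ihf
    obtain ⟨G, hG, mG, cG⟩ := ihg
    refine ⟨fun s n => (G s n).bind fun a => F s a, ?_, ?_, ?_⟩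
    · exact Partrec.bind hG (hF.comp (Computable.fst.comp Computable.fst) Computable.snd).to₂
    · intro s t n v hst hv
      simp only [Part.mem_bind_iff] at hv ⊢
      obtain ⟨a, ha, hv⟩ := hv
      exact ⟨a, mG s t n a hst ha, mF s t a v hst hv⟩
    · intro n v
      refine Part.mem_bind_iff.trans (Iff.trans ?_ (exists_congr fun L => Part.mem_bind_iff.symm))
      constructor
      · rintro ⟨a, ha, hv⟩
        obtain ⟨L, hL⟩ := (cG n a).1 ha
        obtain ⟨M, hM⟩ := (cF a v).1 hv
        exact ⟨max L M, a, mG _ _ n a (pre_prefix x (le_max_left _ _)) hL,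
          mF _ _ a v (pre_prefix x (le_max_right _ _)) hM⟩
      · rintro ⟨L, a, ha, hv⟩
        exact ⟨a, (cG n a).2 ⟨L, ha⟩, (cF a v).2 ⟨L, hv⟩⟩
  | @prec f g _ _ ihf ihg =>
    obtain ⟨F, hF, mF, cF⟩ := ihf
    obtain ⟨G, hG, mG, cG⟩ := ihg
    let K : List Bool → ℕ → ℕ →. ℕ := fun s a m =>
      m.rec (F s a) fun y IH => IH.bind fun i => G s (Nat.pair a (Nat.pair y i))
    let P : ℕ → ℕ →. ℕ := fun a m =>
      m.rec (f a) fun y IH => IH.bind fun i => g (Nat.pair a (Nat.pair y i))
    have mK : ∀ s t a m v, s <+: t → v ∈ K s a m → v ∈ K t a m := by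
      intro s t a m
      induction m with
      | zero => exact fun v hst hv => mF s t a v hst hv
      | succ m ih =>
        intro v hst hv
        simp only [K, Part.mem_bind_iff] at hv ⊢
        obtain ⟨i, hi, hv⟩ := hv
        exact ⟨i, ih i hst hi, mG s t _ v hst hv⟩
    have cK : ∀ a m v, v ∈ P a m ↔ ∃ L, v ∈ K (pre x L) a m := by
      intro a m
      induction m with
      | zero => exact cF a
      | succ m ih =>
        intro v
        simp only [P, K, Part.mem_bind_iff]
        constructor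
        · rintro ⟨i, hi, hv⟩
          obtain ⟨L, hL⟩ := (ih i).1 hi
          obtain ⟨M, hM⟩ := (cG _ v).1 hv
          exact ⟨max L M, i, mK _ _ a m i (pre_prefix x (le_max_left _ _)) hL,
            mG _ _ _ v (pre_prefix x (le_max_right _ _)) hM⟩
        · rintro ⟨L, i, hi, hv⟩
          exact ⟨i, (ih i).2 ⟨L, hi⟩, (cG _ v).2 ⟨L, hv⟩⟩
    refine ⟨fun s p => K s p.unpair.1 p.unpair.2, ?_, fun s t p v hst hv => mK s t _ _ v hst hv,
      fun p v => cK p.unpair.1 p.unpair.2 v⟩
    exact Partrec.nat_rec (Computable.snd.comp (Computable.unpair.comp Computable.snd))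
      (hF.comp Computable.fst (Computable.fst.comp (Computable.unpair.comp Computable.snd)))
      (hG.comp (Computable.fst.comp Computable.fst)
        (Primrec₂.natPair.to_comp.comp
          (Computable.fst.comp (Computable.unpair.comp (Computable.snd.comp Computable.fst)))
          (Primrec₂.natPair.to_comp.comp (Computable.fst.comp Computable.snd)
            (Computable.snd.comp Computable.snd)))).to₂
  | @rfind f _ ihf =>
    obtain ⟨F, hF, mF, cF⟩ := ihf
    have mem : ∀ (h : ℕ →. ℕ) (v : ℕ),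
        v ∈ Nat.rfind (fun n => (fun m => decide (m = 0)) <$> h n) ↔
          0 ∈ h v ∧ ∀ m < v, ∃ w, w ≠ 0 ∧ w ∈ h m := by
      intro h v
      refine Nat.mem_rfind.trans ?_
      change (true ∈ (h v).map fun m => decide (m = 0)) ∧
        (∀ {m : ℕ}, m < v → false ∈ (h m).map fun k => decide (k = 0)) ↔ _
      simp only [Part.mem_map_iff, decide_eq_true_eq, decide_eq_false_iff_not]
      constructor
      · rintro ⟨⟨w, hw, rfl⟩, h2⟩
        exact ⟨hw, fun m hm => by obtain ⟨w, hw, hne⟩ := h2 hm; exact ⟨w, hne, hw⟩⟩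
      · rintro ⟨h1, h2⟩
        exact ⟨⟨0, h1, rfl⟩, fun {m} hm => by obtain ⟨w, hne, hw⟩ := h2 m hm; exact ⟨w, hw, hne⟩⟩
    refine ⟨fun s a => Nat.rfind fun n => (fun m => decide (m = 0)) <$> F s (Nat.pair a n),
      ?_, ?_, ?_⟩
    · refine Partrec.rfind (Partrec.map (hF.comp (Computable.fst.comp Computable.fst)
        (Primrec₂.natPair.to_comp.comp (Computable.snd.comp Computable.fst) Computable.snd))
        (PrimrecPred.decide (Primrec.eq.comp Primrec.snd (Primrec.const 0))).to_comp.to₂).to₂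
    · intro s t a v hst hv
      have hv := (mem (fun n => F s (Nat.pair a n)) v).1 hv
      refine (mem (fun n => F t (Nat.pair a n)) v).2 ?_
      exact ⟨mF _ _ _ _ hst hv.1, fun m hm => by
        obtain ⟨w, hne, hw⟩ := hv.2 m hm; exact ⟨w, hne, mF _ _ _ _ hst hw⟩⟩
    · intro a v
      refine (mem (fun n => f (Nat.pair a n)) v).trans (Iff.trans ?_ (exists_congr fun L =>
        (mem (fun n => F (pre x L) (Nat.pair a n)) v).symm))
      constructor
      · rintro ⟨h1, h2⟩
        obtain ⟨L, hL⟩ := (cF _ _).1 h1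
        choose! w hne hw using h2
        have h3 : ∀ m < v, ∃ M, w m ∈ F (pre x M) (Nat.pair a m) := fun m hm =>
          (cF _ _).1 (hw m hm)
        choose! M hM using h3
        refine ⟨max L ((Finset.range v).sup M), mF _ _ _ _ (pre_prefix x (le_max_left _ _)) hL,
          fun m hm => ⟨w m, hne m hm, mF _ _ _ _ (pre_prefix x ?_) (hM m hm)⟩⟩
        exact le_trans (Finset.le_sup (f := M) (Finset.mem_range.2 hm)) (le_max_right _ _)
      · rintro ⟨L, h1, h2⟩
        exact ⟨(cF _ _).2 ⟨L, h1⟩, fun m hm => by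
          obtain ⟨w, hne, hw⟩ := h2 m hm; exact ⟨w, hne, (cF _ _).2 ⟨L, hw⟩⟩⟩

/-- A code with monotone behaviour computing `f` from the prefixes of `x`. -/
theorem use_code {x : ℕ → Bool} {f : ℕ →. ℕ} (hf : TuringReducible f (orc x)) :
    ∃ c : Code, (∀ (s t : List Bool) (n v : ℕ), s <+: t → v ∈ c.eval (Encodable.encode ((s, n) : List Bool × ℕ)) →
      v ∈ c.eval (Encodable.encode (t, n))) ∧
      ∀ n v, v ∈ f n ↔ ∃ L, v ∈ c.eval (Encodable.encode (pre x L, n)) := by
  obtain ⟨F, hF, mF, cF⟩ := use (RecursiveIn.iff_nat.1 hf)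
  obtain ⟨c, hc⟩ := Code.exists_code.1 hF
  refine ⟨c, fun s t n v hst hv => ?_, fun n v => ?_⟩
  · simp [hc] at hv ⊢
    exact mF s t n v hst hv
  · simp [hc, cF n v]

end Vale.Agent.P327
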